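import Vale.Agent.P092.H828.P.Q0b

set_option linter.all false

open Filter Topology

namespace Vale.Agent.P092.H828.P

section

variable {Y : Type*} [TopologicalSpace Y] [CompactSpace Y]
  {Y' : Type*} [TopologicalSpace Y'] [CompactSpace Y']
  {K : Type*} [NormedAddCommGroup K] [InnerProductSpace ℂ K] [CompleteSpace K]

/-- star preserving -/
def StarP (F : C(Y', ℂ) →ₗ[ℂ] (K →L[ℂ] K)) : Prop := ∀ g, F (Star.star g) = Star.star (F g)

/-- the locality input: the two-sided compressions of `F g` and `F' g` agree off the diagonal -/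
def Loc (E₁ E₂ : C(Y, ℂ) →ₗ[ℂ] (K →L[ℂ] K)) (F F' : C(Y', ℂ) →ₗ[ℂ] (K →L[ℂ] K)) : Prop :=
  ∀ f f' : C(Y, ℂ), Disjoint (tsupport f) (tsupport f') → ∀ g, E₁ f * (F g - F' g) * E₂ f' = 0

/-- the second locality input -/
def Loc0 (E₁ E₂ : C(Y, ℂ) →ₗ[ℂ] (K →L[ℂ] K)) (F : C(Y', ℂ) →ₗ[ℂ] (K →L[ℂ] K)) : Prop :=
  ∀ f f' : C(Y, ℂ), Disjoint (tsupport f) (tsupport f') → ∀ g, E₁ f * F g * E₂ f' = 0

/-- exact orthogonality off the diagonal -/
def Dis (E₁ E₂ : C(Y, ℂ) →ₗ[ℂ] (K →L[ℂ] K)) : Prop :=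
  ∀ f f' : C(Y, ℂ), Disjoint (tsupport f) (tsupport f') → E₁ f * E₂ f' = 0

variable {E E₁ E₂ : C(Y, ℂ) →ₗ[ℂ] (K →L[ℂ] K)} {F F' : C(Y', ℂ) →ₗ[ℂ] (K →L[ℂ] K)} {p p₁ p₂ q : ℝ}

/-- an operator which kills all `F g - F' g` from the left vanishes if the agreement space is
zero -/
theorem zero_of_agr (hF : StarP F) (hF' : StarP F')
    (hagr : ∀ ζ : K, (∀ g, F g ζ = F' g ζ) → ζ = 0) (T : K →L[ℂ] K)
    (hT : ∀ g, T * (F g - F' g) = 0) : T = 0 := by
  have h : ∀ ζ : K, Star.star T ζ = 0 := by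
    intro ζ
    apply hagr
    intro g
    have h1 : (F g - F' g) * Star.star T = 0 := by
      have h2 := congrArg Star.star (hT (Star.star g))
      rw [star_mul, star_sub, hF, hF', star_star, star_star, star_zero] at h2
      exact h2
    have h3 := congrArg (fun A : K →L[ℂ] K => A ζ) h1
    simp only [ContinuousLinearMap.mul_apply, ContinuousLinearMap.sub_apply,
      ContinuousLinearMap.zero_apply] at h3
    exact sub_eq_zero.1 h3
  have h2 : Star.star T = 0 := ContinuousLinearMap.ext h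
  rw [← star_star T, h2, star_zero]

/-- **(B), core**: locality and no agreement give exact orthogonality. `E₁`, `E₂` may be limits
along different ultrafilters, or with different masses. -/
theorem dis_of_loc (h₂ : UL E₂ p₂) (hp₂ : p₂ ≠ 0) (hF : StarP F) (hF' : StarP F')
    (hl : Loc E₁ E₂ F F') (hl₂ : Loc E₂ E₂ F F')
    (hagr : ∀ ζ : K, (∀ g, F g ζ = F' g ζ) → ζ = 0) : Dis E₁ E₂ := by
  intro f f' hff'
  refine zero_of_agr hF hF' hagr _ fun g => ?_
  have hc : (F g - F' g) * E₂ f' = E₂ f' * (F g - F' g) :=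
    h₂.comm_of_local hp₂ _ (fun a b hab => hl₂ a b hab g) f'
  rw [mul_assoc, ← hc, ← mul_assoc]
  exact hl f f' hff' g

/-- **(B)**: multiplicativity up to the mass -/
theorem mul_of_loc (hE : UL E p) (hp : p ≠ 0) (hF : StarP F) (hF' : StarP F')
    (hl : Loc E E F F') (hagr : ∀ ζ : K, (∀ g, F g ζ = F' g ζ) → ζ = 0) (f f' : C(Y, ℂ)) :
    E f * E f' = (p : ℂ) • E (f * f') :=
  hE.mul_of_disj hE (dis_of_loc hE hp hF hF' hl hl hagr) f f'

/-- **(B)**: independence of the ultrafilter: equal up to the masses -/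
theorem eq_of_loc (h₁ : UL E₁ p₁) (h₂ : UL E₂ p₂) (hp₂ : p₂ ≠ 0) (hF : StarP F) (hF' : StarP F')
    (hl : Loc E₁ E₂ F F') (hl₂ : Loc E₂ E₂ F F')
    (hagr : ∀ ζ : K, (∀ g, F g ζ = F' g ζ) → ζ = 0) (f : C(Y, ℂ)) :
    (p₂ : ℂ) • E₁ f = (p₁ : ℂ) • E₂ f := by
  have h := h₁.mul_of_disj h₂ (dis_of_loc h₂ hp₂ hF hF' hl hl₂ hagr) f 1
  rw [h₂.one, mul_one, mul_smul_comm, mul_one] at h
  exact h

/-- **(C)**: the incident calculi commute -/
theorem comm_of_loc0 (hE : UL E p) (hp : p ≠ 0) (hl : Loc0 E E F) (f : C(Y, ℂ)) (g : C(Y', ℂ)) :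
    F g * E f = E f * F g :=
  hE.comm_of_local hp _ (fun a b hab => hl a b hab g) f

/-- the star homomorphism of a multiplicative letter -/
noncomputable def UL.hom (hE : UL E p) (hp : p ≠ 0)
    (hm : ∀ f f' : C(Y, ℂ), E f * E f' = (p : ℂ) • E (f * f')) : C(Y, ℂ) →⋆ₐ[ℂ] (K →L[ℂ] K) where
  toFun f := ((p : ℂ)⁻¹) • E f
  map_one' := by
    have hp' : (p : ℂ) ≠ 0 := by exact_mod_cast hp
    rw [hE.one, smul_smul, inv_mul_cancel₀ hp', one_smul]
  map_mul' f g := by
    have hp' : (p : ℂ) ≠ 0 := by exact_mod_cast hp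
    rw [smul_mul_smul_comm, hm, smul_smul]
    congr 1
    field_simp
  map_zero' := by rw [map_zero, smul_zero]
  map_add' f g := by rw [map_add, smul_add]
  commutes' c := by
    have hp' : (p : ℂ) ≠ 0 := by exact_mod_cast hp
    rw [Algebra.algebraMap_eq_smul_one, map_smul, hE.one, smul_smul, smul_smul,
      Algebra.algebraMap_eq_smul_one]
    congr 1
    field_simp
  map_star' f := by
    rw [hE.star, star_smul]
    congr 1
    simp

theorem UL.hom_apply (hE : UL E p) (hp : p ≠ 0)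
    (hm : ∀ f f' : C(Y, ℂ), E f * E f' = (p : ℂ) • E (f * f')) (f : C(Y, ℂ)) :
    hE.hom hp hm f = ((p : ℂ)⁻¹) • E f := rfl

theorem UL.smul_hom (hE : UL E p) (hp : p ≠ 0)
    (hm : ∀ f f' : C(Y, ℂ), E f * E f' = (p : ℂ) • E (f * f')) (f : C(Y, ℂ)) :
    E f = (p : ℂ) • hE.hom hp hm f := by
  have hp' : (p : ℂ) ≠ 0 := by exact_mod_cast hp
  rw [hE.hom_apply, smul_smul, mul_inv_cancel₀ hp', one_smul]

/-- the locality inputs on a set with dense span are enough -/
theorem loc_of_dense {S : Set C(Y', ℂ)} (hS : Dense (Submodule.span ℂ S : Set C(Y', ℂ)))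
    (hF : Continuous F) (hF' : Continuous F')
    (h : ∀ f f' : C(Y, ℂ), Disjoint (tsupport f) (tsupport f') → ∀ g ∈ S,
      E₁ f * (F g - F' g) * E₂ f' = 0) : Loc E₁ E₂ F F' := by
  intro f f' hff' g
  have hc : Continuous fun g => E₁ f * (F g - F' g) * E₂ f' := by fun_prop
  have hcl : IsClosed {g | E₁ f * (F g - F' g) * E₂ f' = 0} := isClosed_eq hc continuous_const
  have hsub : (Submodule.span ℂ S : Set C(Y', ℂ)) ⊆ {g | E₁ f * (F g - F' g) * E₂ f' = 0} := by
    intro g hg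
    induction hg using Submodule.span_induction with
    | mem x hx => exact h f f' hff' x hx
    | zero => simp
    | add x y _ _ hx hy =>
      simp only [Set.mem_setOf_eq] at hx hy ⊢
      rw [map_add, map_add, add_sub_add_comm, mul_add, add_mul, hx, hy, add_zero]
    | smul c x _ hx =>
      simp only [Set.mem_setOf_eq] at hx ⊢
      rw [map_smul, map_smul, ← smul_sub, mul_smul_comm, smul_mul_assoc, hx, smul_zero]
  exact hcl.closure_subset_iff.2 hsub (hS g)

theorem loc0_of_dense {S : Set C(Y', ℂ)} (hS : Dense (Submodule.span ℂ S : Set C(Y', ℂ)))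
    (hF : Continuous F)
    (h : ∀ f f' : C(Y, ℂ), Disjoint (tsupport f) (tsupport f') → ∀ g ∈ S,
      E₁ f * F g * E₂ f' = 0) : Loc0 E₁ E₂ F := by
  intro f f' hff' g
  have hc : Continuous fun g => E₁ f * F g * E₂ f' := by fun_prop
  have hcl : IsClosed {g | E₁ f * F g * E₂ f' = 0} := isClosed_eq hc continuous_const
  have hsub : (Submodule.span ℂ S : Set C(Y', ℂ)) ⊆ {g | E₁ f * F g * E₂ f' = 0} := by
    intro g hg
    induction hg using Submodule.span_induction with
    | mem x hx => exact h f f' hff' x hx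
    | zero => simp
    | add x y _ _ hx hy =>
      simp only [Set.mem_setOf_eq] at hx hy ⊢
      rw [map_add, mul_add, add_mul, hx, hy, add_zero]
    | smul c x _ hx =>
      simp only [Set.mem_setOf_eq] at hx ⊢
      rw [map_smul, mul_smul_comm, smul_mul_assoc, hx, smul_zero]
  exact hcl.closure_subset_iff.2 hsub (hS g)

/-- a star homomorphism is a letter of mass one -/
theorem UL.of_hom (L : C(Y, ℂ) →⋆ₐ[ℂ] (K →L[ℂ] K)) : UL (L : C(Y, ℂ) →ₗ[ℂ] (K →L[ℂ] K)) 1 where
  one := by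
    change L 1 = _
    rw [map_one]; simp
  star f := map_star L f
  bes s v ξ := by
    change _ ≤ RCLike.re (inner ℂ ξ ((L (∑ i ∈ s, Star.star (v i) * v i)) ξ) : ℂ)
    rw [map_sum]
    simp only [map_mul, map_star, ContinuousLinearMap.sum_apply, inner_sum, map_sum]
    refine le_of_eq (Finset.sum_congr rfl fun i _ => ?_)
    have e : (inner ℂ ξ ((Star.star (L (v i)) * L (v i)) ξ) : ℂ) = inner ℂ (L (v i) ξ) (L (v i) ξ) := by
      rw [ContinuousLinearMap.star_eq_adjoint, ContinuousLinearMap.mul_apply,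
        ContinuousLinearMap.adjoint_inner_right]
    rw [e]
    exact norm_sq_eq_re_inner (𝕜 := ℂ) _

end

section lim

variable {Y : Type*} [TopologicalSpace Y] [CompactSpace Y]
  {K : Type*} [NormedAddCommGroup K] [InnerProductSpace ℂ K] [CompleteSpace K]

/-- A weak limit, along any filter, of (non unital) star homomorphisms is a letter, provided its
mass is scalar. `A i` is only required to satisfy the three identities. -/
theorem UL.of_lim {ι : Type*} {l : Filter ι} [l.NeBot] (A : ι → C(Y, ℂ) → (K →L[ℂ] K))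
    (hAs : ∀ i f, A i (Star.star f) = Star.star (A i f))
    (hAa : ∀ i f g, A i (f + g) = A i f + A i g)
    (hA0 : ∀ i, A i 0 = 0)
    (hAm : ∀ i f g, A i (f * g) = A i f * A i g)
    (E : C(Y, ℂ) →ₗ[ℂ] (K →L[ℂ] K)) (p : ℝ) (h1 : E 1 = (p : ℂ) • (1 : K →L[ℂ] K))
    (hlim : ∀ f (η ξ : K), Tendsto (fun i => (inner ℂ η (A i f ξ) : ℂ)) l (𝓝 (inner ℂ η (E f ξ)))) :
    UL E p where
  one := h1
  star f := by
    refine ContinuousLinearMap.ext fun ξ => ext_inner_left ℂ fun η => ?_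
    have h2 := hlim (Star.star f) η ξ
    have h3 := (hlim f ξ η).star
    rw [ContinuousLinearMap.star_eq_adjoint, ContinuousLinearMap.adjoint_inner_right]
    have e : (Star.star (inner ℂ ξ (E f η)) : ℂ) = inner ℂ (E f η) ξ := inner_conj_symm _ _
    rw [e] at h3
    refine tendsto_nhds_unique h2 (h3.congr fun i => ?_)
    change (Star.star (inner ℂ ξ (A i f η)) : ℂ) = inner ℂ η (A i (Star.star f) ξ)
    rw [hAs, ContinuousLinearMap.star_eq_adjoint, ContinuousLinearMap.adjoint_inner_right]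
    exact inner_conj_symm _ _
  bes := by
    intro J s v ξ
    have hsum : ∀ i, ∑ j ∈ s, ‖A i (v j) ξ‖ ^ 2 =
        RCLike.re (inner ℂ ξ (A i (∑ j ∈ s, Star.star (v j) * v j) ξ) : ℂ) := by
      intro i
      have e0 : A i (∑ j ∈ s, Star.star (v j) * v j) = ∑ j ∈ s, A i (Star.star (v j) * v j) := by
        classical
        induction s using Finset.induction_on with
        | empty => simp [hA0]
        | insert a s ha ih => rw [Finset.sum_insert ha, hAa, ih, Finset.sum_insert ha]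
      rw [e0]
      simp only [ContinuousLinearMap.sum_apply, inner_sum, map_sum]
      refine Finset.sum_congr rfl fun j _ => ?_
      rw [hAm, hAs, ContinuousLinearMap.mul_apply, ContinuousLinearMap.star_eq_adjoint,
        ContinuousLinearMap.adjoint_inner_right]
      exact norm_sq_eq_re_inner (𝕜 := ℂ) _
    -- pair with the limit
    have h2 : Tendsto (fun i => ∑ j ∈ s, RCLike.re (inner ℂ (E (v j) ξ) (A i (v j) ξ) : ℂ)) l
        (𝓝 (∑ j ∈ s, ‖E (v j) ξ‖ ^ 2)) := by
      refine tendsto_finset_sum _ fun j _ => ?_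
      have h3 := (RCLike.continuous_re.tendsto _).comp (hlim (v j) (E (v j) ξ) ξ)
      rw [← norm_sq_eq_re_inner (𝕜 := ℂ)] at h3
      exact h3
    have h3 : Tendsto (fun i => RCLike.re (inner ℂ ξ (A i (∑ j ∈ s, Star.star (v j) * v j) ξ) : ℂ)) l
        (𝓝 (RCLike.re (inner ℂ ξ (E (∑ j ∈ s, Star.star (v j) * v j) ξ) : ℂ))) :=
      (RCLike.continuous_re.tendsto _).comp (hlim _ ξ ξ)
    have h4 : ∀ i, ∑ j ∈ s, RCLike.re (inner ℂ (E (v j) ξ) (A i (v j) ξ) : ℂ) ≤
        (1 / 2) * (∑ j ∈ s, ‖E (v j) ξ‖ ^ 2) +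
        (1 / 2) * RCLike.re (inner ℂ ξ (A i (∑ j ∈ s, Star.star (v j) * v j) ξ) : ℂ) := by
      intro i
      rw [← hsum i, Finset.mul_sum, Finset.mul_sum, ← Finset.sum_add_distrib]
      refine Finset.sum_le_sum fun j _ => ?_
      have h5 : RCLike.re (inner ℂ (E (v j) ξ) (A i (v j) ξ) : ℂ) ≤ ‖E (v j) ξ‖ * ‖A i (v j) ξ‖ :=
        (RCLike.re_le_norm _).trans (norm_inner_le_norm _ _)
      nlinarith [sq_nonneg (‖E (v j) ξ‖ - ‖A i (v j) ξ‖)]
    have h6 := le_of_tendsto_of_tendsto' h2 ((h3.const_mul (1 / 2)).const_add _) h4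
    linarith

end lim

end Vale.Agent.P092.H828.P
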