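import Vale.Agent.P092.SP.UL
import Vale.Agent.P092.H828.P.Q0c

set_option linter.all false

open Filter Topology

namespace Vale.Agent.P092.H828.P

section

variable {Y : Type*} [TopologicalSpace Y] [CompactSpace Y]
  {K : Type*} [NormedAddCommGroup K] [InnerProductSpace ℂ K] [CompleteSpace K]
  {E : C(Y, ℂ) →ₗ[ℂ] (K →L[ℂ] K)} {p : ℝ}

theorem UL.ofSP (h : SP.UL E p) : UL E p where
  one := h.one
  star := h.star
  bes := by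
    intro ι s v ξ
    have e : Fin s.card ≃ s := s.equivFin.symm
    have h1 := h.bes s.card (fun i => v (e i)) ξ
    have e1 : ∑ i, ‖E (v (e i)) ξ‖ ^ 2 = ∑ i ∈ s, ‖E (v i) ξ‖ ^ 2 := by
      rw [← Finset.sum_coe_sort s (fun i => ‖E (v i) ξ‖ ^ 2)]
      exact Equiv.sum_comp e (fun i : s => ‖E (v i) ξ‖ ^ 2)
    have e2 : ∑ i, Star.star (v (e i)) * v (e i) = ∑ i ∈ s, Star.star (v i) * v i := by
      rw [← Finset.sum_coe_sort s (fun i => Star.star (v i) * v i)]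
      exact Equiv.sum_comp e (fun i : s => Star.star (v i) * v i)
    rw [e1, e2] at h1
    exact h1

theorem UL.toSP (h : UL E p) : SP.UL E p where
  one := h.one
  star := h.star
  bes := fun n v ξ => h.bes Finset.univ v ξ

theorem ul_iff : UL E p ↔ SP.UL E p := ⟨UL.toSP, UL.ofSP⟩

end

end Vale.Agent.P092.H828.P

namespace Vale.Agent.P092.SP

open Vale.Agent.P092.H828.P (Loc Loc0 Dis StarP)

section

variable {Y : Type*} [TopologicalSpace Y] [CompactSpace Y]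
  {Y' : Type*} [TopologicalSpace Y'] [CompactSpace Y']
  {K : Type*} [NormedAddCommGroup K] [InnerProductSpace ℂ K] [CompleteSpace K]
  {E E₁ E₂ : C(Y, ℂ) →ₗ[ℂ] (K →L[ℂ] K)} {F F' : C(Y', ℂ) →ₗ[ℂ] (K →L[ℂ] K)} {p p₁ p₂ q q' : ℝ}

theorem UL.bes_le (hE : UL E p) {ι : Type} (s : Finset ι) (v : ι → C(Y, ℂ)) (M : ℝ)
    (hM : ∀ y, ∑ i ∈ s, ‖v i y‖ ^ 2 ≤ M) (ξ : K) :
    ∑ i ∈ s, ‖E (v i) ξ‖ ^ 2 ≤ p * M * ‖ξ‖ ^ 2 := (H828.P.UL.ofSP hE).bes_le s v M hM ξ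

theorem UL.nonneg (hE : UL E p) (u : C(Y, ℂ)) (ξ : K) :
    0 ≤ RCLike.re (inner ℂ ξ (E (Star.star u * u) ξ) : ℂ) := (H828.P.UL.ofSP hE).nonneg u ξ

theorem UL.mass_nonneg [Nontrivial K] (hE : UL E p) : 0 ≤ p := (H828.P.UL.ofSP hE).mass_nonneg

theorem UL.norm_apply_le (hE : UL E p) (f : C(Y, ℂ)) (ξ : K) :
    ‖E f ξ‖ ^ 2 ≤ p * ‖f‖ ^ 2 * ‖ξ‖ ^ 2 := (H828.P.UL.ofSP hE).norm_apply_le f ξ

theorem UL.norm_le (hE : UL E p) (f : C(Y, ℂ)) : ‖E f‖ ≤ Real.sqrt |p| * ‖f‖ :=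
  (H828.P.UL.ofSP hE).norm_le f

theorem UL.continuous (hE : UL E p) : Continuous E := (H828.P.UL.ofSP hE).continuous

theorem UL.shift (h₁ : UL E₁ p₁) (h₂ : UL E₂ p₂) (D : K →L[ℂ] K)
    (hD : ∀ f g : C(Y, ℂ), Disjoint (tsupport f) (tsupport g) → E₁ f * D * E₂ g = 0)
    (h f g : C(Y, ℂ)) : E₁ (h * f) * D * E₂ g = E₁ f * D * E₂ (h * g) :=
  (H828.P.UL.ofSP h₁).shift (H828.P.UL.ofSP h₂) D hD h f g

theorem UL.comm_of_local (hE : UL E p) (hp : p ≠ 0) (D : K →L[ℂ] K)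
    (hD : ∀ f g : C(Y, ℂ), Disjoint (tsupport f) (tsupport g) → E f * D * E g = 0)
    (f : C(Y, ℂ)) : D * E f = E f * D := (H828.P.UL.ofSP hE).comm_of_local hp D hD f

theorem UL.mul_of_disj (h₁ : UL E₁ p₁) (h₂ : UL E₂ p₂)
    (hd : ∀ f g : C(Y, ℂ), Disjoint (tsupport f) (tsupport g) → E₁ f * E₂ g = 0)
    (f g : C(Y, ℂ)) : E₁ f * E₂ g = (p₁ : ℂ) • E₂ (f * g) :=
  (H828.P.UL.ofSP h₁).mul_of_disj (H828.P.UL.ofSP h₂) hd f g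

theorem UL.of_hom (L : C(Y, ℂ) →⋆ₐ[ℂ] (K →L[ℂ] K)) : UL (L : C(Y, ℂ) →ₗ[ℂ] (K →L[ℂ] K)) 1 :=
  (H828.P.UL.of_hom L).toSP

theorem UL.dis_of_loc (h₂ : UL E₂ p₂) (hp₂ : p₂ ≠ 0) (hF : UL F q) (hF' : UL F' q')
    (hl : Loc E₁ E₂ F F') (hl₂ : Loc E₂ E₂ F F')
    (hagr : ∀ ζ : K, (∀ g, F g ζ = F' g ζ) → ζ = 0) : Dis E₁ E₂ :=
  H828.P.dis_of_loc (H828.P.UL.ofSP h₂) hp₂ hF.star hF'.star hl hl₂ hagr

theorem UL.mul_of_loc (hE : UL E p) (hp : p ≠ 0) (hF : UL F q) (hF' : UL F' q')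
    (hl : Loc E E F F') (hagr : ∀ ζ : K, (∀ g, F g ζ = F' g ζ) → ζ = 0) (f f' : C(Y, ℂ)) :
    E f * E f' = (p : ℂ) • E (f * f') :=
  H828.P.mul_of_loc (H828.P.UL.ofSP hE) hp hF.star hF'.star hl hagr f f'

theorem UL.eq_of_loc (h₁ : UL E₁ p₁) (h₂ : UL E₂ p₂) (hp₂ : p₂ ≠ 0) (hF : UL F q) (hF' : UL F' q')
    (hl : Loc E₁ E₂ F F') (hl₂ : Loc E₂ E₂ F F')
    (hagr : ∀ ζ : K, (∀ g, F g ζ = F' g ζ) → ζ = 0) (f : C(Y, ℂ)) :
    (p₂ : ℂ) • E₁ f = (p₁ : ℂ) • E₂ f :=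
  H828.P.eq_of_loc (H828.P.UL.ofSP h₁) (H828.P.UL.ofSP h₂) hp₂ hF.star hF'.star hl hl₂ hagr f

theorem UL.comm_of_loc0 (hE : UL E p) (hp : p ≠ 0) (hl : Loc0 E E F) (f : C(Y, ℂ))
    (g : C(Y', ℂ)) : F g * E f = E f * F g :=
  H828.P.comm_of_loc0 (H828.P.UL.ofSP hE) hp hl f g

/-- the star homomorphism of a multiplicative letter -/
noncomputable def UL.hom (hE : UL E p) (hp : p ≠ 0)
    (hm : ∀ f f' : C(Y, ℂ), E f * E f' = (p : ℂ) • E (f * f')) : C(Y, ℂ) →⋆ₐ[ℂ] (K →L[ℂ] K) :=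
  (H828.P.UL.ofSP hE).hom hp hm

theorem UL.hom_apply (hE : UL E p) (hp : p ≠ 0)
    (hm : ∀ f f' : C(Y, ℂ), E f * E f' = (p : ℂ) • E (f * f')) (f : C(Y, ℂ)) :
    hE.hom hp hm f = ((p : ℂ)⁻¹) • E f := rfl

theorem UL.smul_hom (hE : UL E p) (hp : p ≠ 0)
    (hm : ∀ f f' : C(Y, ℂ), E f * E f' = (p : ℂ) • E (f * f')) (f : C(Y, ℂ)) :
    E f = (p : ℂ) • hE.hom hp hm f := (H828.P.UL.ofSP hE).smul_hom hp hm f

/-- **Coincidence lemma** (P3.2): under locality for the two letters `E₁`, `E₂` of positive mass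
of one type at two source vertices and the middle letters `F`, `F'` which agree nowhere, the two
letters are proportional; in particular they agree everywhere if the masses are equal. -/
theorem UL.coincide (h₁ : UL E₁ p) (h₂ : UL E₂ p) (hp : p ≠ 0) (hF : UL F q) (hF' : UL F' q')
    (hl : Loc E₁ E₂ F F') (hl₂ : Loc E₂ E₂ F F')
    (hagr : ∀ ζ : K, (∀ g, F g ζ = F' g ζ) → ζ = 0) (f : C(Y, ℂ)) : E₁ f = E₂ f := by
  have h := UL.eq_of_loc h₁ h₂ hp hF hF' hl hl₂ hagr f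
  have hp' : (p : ℂ) ≠ 0 := by exact_mod_cast hp
  exact smul_right_injective _ hp' h

/-- **Purity** (P3.2): if the letters of the first type agree nowhere at two vertices and the
letters of the second type agree nowhere, one of the two masses is zero. -/
theorem UL.pure [Nontrivial K] (h₁ : UL E₁ p) (h₂ : UL E₂ p) (hF : UL F q) (hF' : UL F' q)
    (hl : Loc E₁ E₂ F F') (hl₂ : Loc E₂ E₂ F F')
    (hagr : p ≠ 0 → ∀ ζ : K, (∀ f, E₁ f ζ = E₂ f ζ) → ζ = 0)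
    (hagr' : q ≠ 0 → ∀ ζ : K, (∀ g, F g ζ = F' g ζ) → ζ = 0) : p = 0 ∨ q = 0 := by
  by_contra hc
  push Not at hc
  obtain ⟨hp, hq⟩ := hc
  obtain ⟨ζ, hζ⟩ := exists_ne (0 : K)
  exact hζ (hagr hp ζ fun f => by rw [UL.coincide h₁ h₂ hp hF hF' hl hl₂ (hagr' hq) f])

end

end Vale.Agent.P092.SP
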