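import Mathlib

set_option linter.all false

open Filter Topology

namespace Vale.Agent.P092.H828.P

section

variable {Y : Type*} [TopologicalSpace Y] [CompactSpace Y]
  {K : Type*} [NormedAddCommGroup K] [InnerProductSpace ℂ K] [CompleteSpace K]

/-- A positive letter: star preserving, with scalar mass `p` and the Bessel (Kadison)
inequality. Every weak limit of contractive star homomorphisms with scalar mass is one. -/
structure UL (E : C(Y, ℂ) →ₗ[ℂ] (K →L[ℂ] K)) (p : ℝ) : Prop where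
  one : E 1 = (p : ℂ) • (1 : K →L[ℂ] K)
  star : ∀ f, E (Star.star f) = Star.star (E f)
  bes : ∀ {ι : Type} (s : Finset ι) (v : ι → C(Y, ℂ)) (ξ : K), ∑ i ∈ s, ‖E (v i) ξ‖ ^ 2 ≤
      RCLike.re (inner ℂ ξ (E (∑ i ∈ s, Star.star (v i) * v i) ξ) : ℂ)

variable {E E₁ E₂ : C(Y, ℂ) →ₗ[ℂ] (K →L[ℂ] K)} {p p₁ p₂ : ℝ}

/-- a real function as a complex one -/
noncomputable def co (h : C(Y, ℝ)) : C(Y, ℂ) := ⟨fun y => (h y : ℂ), by fun_prop⟩

@[simp] theorem co_apply (h : C(Y, ℝ)) (y : Y) : co h y = (h y : ℂ) := rfl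

theorem UL.nonneg (hE : UL E p) (u : C(Y, ℂ)) (ξ : K) :
    0 ≤ RCLike.re (inner ℂ ξ (E (Star.star u * u) ξ) : ℂ) := by
  have h := hE.bes (ι := Unit) {()} (fun _ => u) ξ
  simp only [Finset.sum_singleton] at h
  exact le_trans (by positivity) h

theorem UL.bes_le (hE : UL E p) {ι : Type} (s : Finset ι) (v : ι → C(Y, ℂ)) (M : ℝ)
    (hM : ∀ y, ∑ i ∈ s, ‖v i y‖ ^ 2 ≤ M) (ξ : K) :
    ∑ i ∈ s, ‖E (v i) ξ‖ ^ 2 ≤ p * M * ‖ξ‖ ^ 2 := by
  set u : C(Y, ℝ) := ⟨fun y => Real.sqrt (M - ∑ i ∈ s, ‖v i y‖ ^ 2), by fun_prop⟩ with hu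
  have hdec : ∑ i ∈ s, Star.star (v i) * v i = (M : ℂ) • (1 : C(Y, ℂ)) - Star.star (co u) * co u := by
    ext y
    have h1 : Real.sqrt (M - ∑ i ∈ s, ‖v i y‖ ^ 2) * Real.sqrt (M - ∑ i ∈ s, ‖v i y‖ ^ 2)
        = M - ∑ i ∈ s, ‖v i y‖ ^ 2 := Real.mul_self_sqrt (by linarith [hM y])
    simp only [ContinuousMap.sum_apply, ContinuousMap.mul_apply, ContinuousMap.star_apply,
      ContinuousMap.sub_apply, ContinuousMap.smul_apply, ContinuousMap.one_apply, co_apply,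
      smul_eq_mul, mul_one, hu, ContinuousMap.coe_mk]
    have h2 : ∀ i, Star.star (v i y) * v i y = ((‖v i y‖ ^ 2 : ℝ) : ℂ) := by
      intro i
      rw [Complex.star_def, ← Complex.normSq_eq_conj_mul_self, Complex.normSq_eq_norm_sq]
    rw [Finset.sum_congr rfl (fun i _ => h2 i)]
    rw [Complex.star_def, Complex.conj_ofReal, ← Complex.ofReal_mul, h1]
    push_cast
    ring
  have h3 := hE.bes s v ξ
  rw [hdec, map_sub, map_smul, hE.one] at h3
  have h4 := hE.nonneg (co u) ξ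
  simp only [ContinuousLinearMap.sub_apply, ContinuousLinearMap.smul_apply,
    ContinuousLinearMap.one_apply, inner_sub_right, inner_smul_right, map_sub] at h3 
  have h5 : RCLike.re ((M : ℂ) * ((p : ℂ) * (inner ℂ ξ ξ : ℂ))) = p * M * ‖ξ‖ ^ 2 := by
    have hin : (inner ℂ ξ ξ : ℂ) = ((‖ξ‖ ^ 2 : ℝ) : ℂ) := by
      rw [inner_self_eq_norm_sq_to_K]; push_cast; rfl
    rw [hin, ← Complex.ofReal_mul, ← Complex.ofReal_mul]
    change ((M * (p * ‖ξ‖ ^ 2) : ℝ) : ℂ).re = _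
    rw [Complex.ofReal_re]
    ring
  rw [h5] at h3
  linarith

theorem UL.mass_nonneg [Nontrivial K] (hE : UL E p) : 0 ≤ p := by
  obtain ⟨ξ, hξ⟩ := exists_ne (0 : K)
  have h := hE.bes_le (ι := Empty) ∅ (fun _ => 0) 1 (by simp) ξ
  simp only [Finset.sum_empty, mul_one] at h
  have : 0 < ‖ξ‖ ^ 2 := by positivity
  by_contra hp
  push Not at hp
  nlinarith

theorem UL.norm_apply_le (hE : UL E p) (f : C(Y, ℂ)) (ξ : K) :
    ‖E f ξ‖ ^ 2 ≤ p * ‖f‖ ^ 2 * ‖ξ‖ ^ 2 := by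
  have h := hE.bes_le (ι := Unit) {()} (fun _ => f) (‖f‖ ^ 2) (by
    intro y
    simp only [Finset.sum_singleton]
    have := f.norm_coe_le_norm y
    gcongr) ξ
  simpa only [Finset.sum_singleton] using h

theorem UL.norm_le (hE : UL E p) (f : C(Y, ℂ)) : ‖E f‖ ≤ Real.sqrt |p| * ‖f‖ := by
  refine ContinuousLinearMap.opNorm_le_bound _ (by positivity) (fun ξ => ?_)
  have h := hE.norm_apply_le f ξ
  have h2 : ‖E f ξ‖ ^ 2 ≤ (Real.sqrt |p| * ‖f‖ * ‖ξ‖) ^ 2 := by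
    rw [mul_pow, mul_pow, Real.sq_sqrt (abs_nonneg p)]
    refine h.trans ?_
    gcongr
    exact le_abs_self p
  exact (abs_le_of_sq_le_sq' h2 (by positivity)).2

theorem UL.continuous (hE : UL E p) : Continuous E := by
  have := (E.mkContinuous (Real.sqrt |p|) (fun f => hE.norm_le f)).continuous
  exact this

/-- the window sum -/
theorem win (n : ℕ) (x y : ℕ → ℝ) :
    ∑ i ∈ Finset.range n, ∑ j ∈ Finset.range n,
      (if (i ≤ j + 2 ∧ j ≤ i + 2) then |x i * y j| else 0) ≤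
      5 / 2 * (∑ i ∈ Finset.range n, x i ^ 2 + ∑ j ∈ Finset.range n, y j ^ 2) := by
  have hc : ∀ i : ℕ, ((Finset.range n).filter (fun j => i ≤ j + 2 ∧ j ≤ i + 2)).card ≤ 5 := by
    intro i
    refine (Finset.card_le_card (t := Finset.Icc (i - 2) (i + 2)) ?_).trans ?_
    · intro j hj
      simp only [Finset.mem_filter, Finset.mem_Icc] at hj ⊢
      omega
    · rw [Nat.card_Icc]; omega
  have h1 : ∀ i ∈ Finset.range n, ∀ j ∈ Finset.range n,
      (if (i ≤ j + 2 ∧ j ≤ i + 2) then |x i * y j| else 0) ≤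
      (if (i ≤ j + 2 ∧ j ≤ i + 2) then x i ^ 2 / 2 else 0) +
      (if (j ≤ i + 2 ∧ i ≤ j + 2) then y j ^ 2 / 2 else 0) := by
    intro i _ j _
    by_cases h : i ≤ j + 2 ∧ j ≤ i + 2
    · rw [if_pos h, if_pos h, if_pos ⟨h.2, h.1⟩, abs_mul]
      nlinarith [sq_nonneg (|x i| - |y j|), sq_abs (x i), sq_abs (y j)]
    · rw [if_neg h, if_neg h, if_neg (fun h' => h ⟨h'.2, h'.1⟩)]
      simp
  refine (Finset.sum_le_sum fun i hi => Finset.sum_le_sum fun j hj => h1 i hi j hj).trans ?_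
  simp only [Finset.sum_add_distrib]
  have h2 : ∑ i ∈ Finset.range n, ∑ j ∈ Finset.range n,
      (if (i ≤ j + 2 ∧ j ≤ i + 2) then x i ^ 2 / 2 else 0) ≤
      5 / 2 * ∑ i ∈ Finset.range n, x i ^ 2 := by
    rw [Finset.mul_sum]
    refine Finset.sum_le_sum fun i _ => ?_
    rw [← Finset.sum_filter, Finset.sum_const, nsmul_eq_mul]
    have : (((Finset.range n).filter (fun j => i ≤ j + 2 ∧ j ≤ i + 2)).card : ℝ) ≤ 5 := by
      exact_mod_cast hc i
    nlinarith [sq_nonneg (x i)]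
  have h3 : ∑ i ∈ Finset.range n, ∑ j ∈ Finset.range n,
      (if (j ≤ i + 2 ∧ i ≤ j + 2) then y j ^ 2 / 2 else 0) ≤
      5 / 2 * ∑ j ∈ Finset.range n, y j ^ 2 := by
    rw [Finset.sum_comm, Finset.mul_sum]
    refine Finset.sum_le_sum fun j _ => ?_
    rw [← Finset.sum_filter, Finset.sum_const, nsmul_eq_mul]
    have : (((Finset.range n).filter (fun i => j ≤ i + 2 ∧ i ≤ j + 2)).card : ℝ) ≤ 5 := by
      exact_mod_cast hc j
    nlinarith [sq_nonneg (y j)]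
  linarith

/-- the clamps and the cells of a real function -/
noncomputable def cl (N : ℕ) (h : C(Y, ℝ)) (i : ℕ) : C(Y, ℝ) :=
  ⟨fun y => max 0 (min 1 (N * h y - i + 1)), by fun_prop⟩

noncomputable def ce (N : ℕ) (h : C(Y, ℝ)) (i : ℕ) : C(Y, ℝ) := cl N h i - cl N h (i + 1)

theorem cl_anti (N : ℕ) (h : C(Y, ℝ)) (i : ℕ) (y : Y) : cl N h (i + 1) y ≤ cl N h i y := by
  simp only [cl, ContinuousMap.coe_mk]
  push_cast
  gcongr
  linarith

theorem ce_nonneg (N : ℕ) (h : C(Y, ℝ)) (i : ℕ) (y : Y) : 0 ≤ ce N h i y := by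
  simp only [ce, ContinuousMap.sub_apply]
  linarith [cl_anti N h i y]

theorem sum_ce (N : ℕ) (h : C(Y, ℝ)) (h0 : ∀ y, 0 ≤ h y) (h1 : ∀ y, h y ≤ 1) (y : Y) :
    ∑ i ∈ Finset.range (N + 1), ce N h i y = 1 := by
  simp only [ce, ContinuousMap.sub_apply]
  rw [Finset.sum_range_sub']
  simp only [cl, ContinuousMap.coe_mk]
  push_cast
  have ha : (1 : ℝ) ≤ N * h y - 0 + 1 := by
    have := mul_nonneg (Nat.cast_nonneg (α := ℝ) N) (h0 y); linarith
  have hb : (N : ℝ) * h y - (N + 1) + 1 ≤ 0 := by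
    have := mul_le_mul_of_nonneg_left (h1 y) (Nat.cast_nonneg (α := ℝ) N); linarith
  rw [min_eq_left ha, max_eq_right (zero_le_one), min_eq_right (by linarith), max_eq_left hb]
  ring

theorem ce_supp (N : ℕ) (h : C(Y, ℝ)) (i : ℕ) (y : Y) (hy : ce N h i y ≠ 0) :
    |N * h y - i| < 1 := by
  by_contra hc
  push Not at hc
  apply hy
  simp only [ce, cl, ContinuousMap.sub_apply, ContinuousMap.coe_mk]
  push_cast
  rcases le_abs'.1 hc with h1 | h1
  · rw [min_eq_right (by linarith), min_eq_right (by linarith), max_eq_left (by linarith),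
      max_eq_left (by linarith)]
    ring
  · rw [min_eq_left (by linarith), min_eq_left (by linarith)]
    ring

theorem ce_tsupp (N : ℕ) (h : C(Y, ℝ)) (i : ℕ) :
    tsupport (co (ce N h i)) ⊆ {y | |N * h y - i| ≤ 1} := by
  refine closure_minimal ?_ (isClosed_le (by fun_prop) continuous_const)
  intro y hy
  simp only [Function.mem_support, co_apply, ne_eq, Complex.ofReal_eq_zero] at hy
  exact (ce_supp N h i y hy).le

theorem sum_ce_sq (N : ℕ) (h : C(Y, ℝ)) (h0 : ∀ y, 0 ≤ h y) (h1 : ∀ y, h y ≤ 1) (y : Y) :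
    ∑ i ∈ Finset.range (N + 1), (ce N h i y) ^ 2 ≤ 1 := by
  rw [← sum_ce N h h0 h1 y]
  refine Finset.sum_le_sum fun i hi => ?_
  have h2 := ce_nonneg N h i y
  have h3 : ce N h i y ≤ 1 := by
    rw [← sum_ce N h h0 h1 y]
    exact Finset.single_le_sum (f := fun i => ce N h i y) (fun j _ => ce_nonneg N h j y) hi
  nlinarith

/-- the cells multiplied by `f`: Bessel sum -/
theorem cell_bes (N : ℕ) (h : C(Y, ℝ)) (h0 : ∀ y, 0 ≤ h y) (h1 : ∀ y, h y ≤ 1) (f : C(Y, ℂ))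
    (v : ℕ → C(Y, ℂ)) (hv : ∀ i y, ‖v i y‖ ≤ ce N h i y * ‖f y‖) (y : Y) :
    ∑ i ∈ Finset.range (N + 1), ‖v i y‖ ^ 2 ≤ ‖f‖ ^ 2 := by
  calc ∑ i ∈ Finset.range (N + 1), ‖v i y‖ ^ 2
      ≤ ∑ i ∈ Finset.range (N + 1), (ce N h i y) ^ 2 * ‖f y‖ ^ 2 := by
        refine Finset.sum_le_sum fun i _ => ?_
        rw [← mul_pow]
        exact pow_le_pow_left₀ (norm_nonneg _) (hv i y) 2
    _ = (∑ i ∈ Finset.range (N + 1), (ce N h i y) ^ 2) * ‖f y‖ ^ 2 := by rw [Finset.sum_mul]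
    _ ≤ 1 * ‖f‖ ^ 2 := by
        have h2 := sum_ce_sq N h h0 h1 y
        have h3 := f.norm_coe_le_norm y
        gcongr
    _ = ‖f‖ ^ 2 := one_mul _

end

end Vale.Agent.P092.H828.P
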