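import Vale.Agent.P092.H828.P.Q0a

set_option linter.all false

open Filter Topology

namespace Vale.Agent.P092.H828.P

section

variable {Y : Type*} [TopologicalSpace Y] [CompactSpace Y]
  {K : Type*} [NormedAddCommGroup K] [InnerProductSpace ℂ K] [CompleteSpace K]
  {E E₁ E₂ : C(Y, ℂ) →ₗ[ℂ] (K →L[ℂ] K)} {p p₁ p₂ : ℝ}

theorem UL.tb (h₁ : UL E₁ p₁) (D : K →L[ℂ] K) (u v : C(Y, ℂ)) (η ξ : K) :
    ‖(inner ℂ η ((E₁ u * D * E₂ v) ξ) : ℂ)‖ ≤ ‖D‖ * |‖E₁ (Star.star u) η‖ * ‖E₂ v ξ‖| := by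
  have e : (inner ℂ η ((E₁ u * D * E₂ v) ξ) : ℂ) = inner ℂ (E₁ (Star.star u) η) (D (E₂ v ξ)) := by
    rw [h₁.star, ContinuousLinearMap.star_eq_adjoint, ContinuousLinearMap.adjoint_inner_left]
    rfl
  rw [e, abs_of_nonneg (by positivity)]
  calc ‖(inner ℂ (E₁ (Star.star u) η) (D (E₂ v ξ)) : ℂ)‖
      ≤ ‖E₁ (Star.star u) η‖ * ‖D (E₂ v ξ)‖ := norm_inner_le_norm _ _
    _ ≤ ‖E₁ (Star.star u) η‖ * (‖D‖ * ‖E₂ v ξ‖) := by gcongr; exact D.le_opNorm _
    _ = ‖D‖ * (‖E₁ (Star.star u) η‖ * ‖E₂ v ξ‖) := by ring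

theorem co_sum {ι : Type} (s : Finset ι) (f : ι → C(Y, ℝ)) : co (∑ i ∈ s, f i) = ∑ i ∈ s, co (f i) := by
  ext y
  simp [ContinuousMap.sum_apply]

/-- the core estimate for one real function with values in the unit interval -/
theorem shift_core (h₁ : UL E₁ p₁) (h₂ : UL E₂ p₂) (D : K →L[ℂ] K)
    (hD : ∀ f g : C(Y, ℂ), Disjoint (tsupport f) (tsupport g) → E₁ f * D * E₂ g = 0)
    (h : C(Y, ℝ)) (h0 : ∀ y, 0 ≤ h y) (h1 : ∀ y, h y ≤ 1) (f g : C(Y, ℂ)) (η ξ : K) (N : ℕ) :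
    (N : ℝ) * ‖(inner ℂ η ((E₁ (co h * f) * D * E₂ g) ξ) : ℂ) -
      inner ℂ η ((E₁ f * D * E₂ (co h * g)) ξ)‖ ≤
      10 * ‖D‖ * (p₁ * ‖f‖ ^ 2 * ‖η‖ ^ 2 + p₂ * ‖g‖ ^ 2 * ‖ξ‖ ^ 2) := by
  set t : C(Y, ℂ) → C(Y, ℂ) → ℂ := fun u v => inner ℂ η ((E₁ u * D * E₂ v) ξ) with ht
  have tsl : ∀ (s : Finset ℕ) (u : ℕ → C(Y, ℂ)) v, t (∑ i ∈ s, u i) v = ∑ i ∈ s, t (u i) v := by
    intro s u v
    simp only [ht, map_sum, Finset.sum_mul, ContinuousLinearMap.sum_apply, inner_sum]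
  have tsr : ∀ (s : Finset ℕ) u (v : ℕ → C(Y, ℂ)), t u (∑ i ∈ s, v i) = ∑ i ∈ s, t u (v i) := by
    intro s u v
    simp only [ht, map_sum, Finset.mul_sum, ContinuousLinearMap.sum_apply, inner_sum]
  have tal : ∀ u u' v, t (u + u') v = t u v + t u' v := by
    intro u u' v
    simp only [ht, map_add, add_mul, ContinuousLinearMap.add_apply, inner_add_right]
  have tar : ∀ u v v', t u (v + v') = t u v + t u v' := by
    intro u v v'
    simp only [ht, map_add, mul_add, ContinuousLinearMap.add_apply, inner_add_right]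
  have tml : ∀ (c : ℂ) u v, t (c • u) v = c * t u v := by
    intro c u v
    simp only [ht, map_smul, smul_mul_assoc, ContinuousLinearMap.smul_apply, inner_smul_right]
  have tmr : ∀ (c : ℂ) u v, t u (c • v) = c * t u v := by
    intro c u v
    simp only [ht, map_smul, mul_smul_comm, ContinuousLinearMap.smul_apply, inner_smul_right]
  have tbd : ∀ u v, ‖t u v‖ ≤ ‖D‖ * |‖E₁ (Star.star u) η‖ * ‖E₂ v ξ‖| := fun u v =>
    h₁.tb D u v η ξ
  set X : ℕ → C(Y, ℂ) := fun i => co (ce N h i) with hX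
  have hX1 : ∑ i ∈ Finset.range (N + 1), X i = 1 := by
    rw [hX, ← co_sum]
    ext y
    simp only [co_apply, ContinuousMap.sum_apply, ContinuousMap.one_apply]
    rw [sum_ce N h h0 h1 y]; simp
  set a : ℕ → C(Y, ℂ) := fun i => X i * f with ha
  set b : ℕ → C(Y, ℂ) := fun i => X i * g with hb
  set w : ℕ → C(Y, ℂ) := fun i => (N : ℂ) • (co h * a i) - (i : ℂ) • a i with hw
  set w' : ℕ → C(Y, ℂ) := fun i => (N : ℂ) • (co h * b i) - (i : ℂ) • b i with hw'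
  have hfa : f = ∑ i ∈ Finset.range (N + 1), a i := by
    simp only [ha]; rw [← Finset.sum_mul, hX1, one_mul]
  have hgb : g = ∑ i ∈ Finset.range (N + 1), b i := by
    simp only [hb]; rw [← Finset.sum_mul, hX1, one_mul]
  -- the norms of the cells
  have nX : ∀ i y, ‖X i y‖ = ce N h i y := by
    intro i y
    simp only [hX, co_apply, Complex.norm_real, Real.norm_eq_abs, abs_of_nonneg (ce_nonneg N h i y)]
  have na : ∀ (f : C(Y, ℂ)) i y, ‖(X i * f) y‖ ≤ ce N h i y * ‖f y‖ := by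
    intro f i y
    rw [ContinuousMap.mul_apply, norm_mul, nX]
  have nw : ∀ (f : C(Y, ℂ)) i y, ‖((N : ℂ) • (co h * (X i * f)) - (i : ℂ) • (X i * f)) y‖ ≤
      ce N h i y * ‖f y‖ := by
    intro f i y
    have e : ((N : ℂ) • (co h * (X i * f)) - (i : ℂ) • (X i * f)) y =
        ((N * h y - i : ℝ) : ℂ) * (X i y * f y) := by
      simp only [ContinuousMap.sub_apply, ContinuousMap.smul_apply, ContinuousMap.mul_apply,
        co_apply, smul_eq_mul]
      push_cast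
      ring
    rw [e, norm_mul, norm_mul, nX, Complex.norm_real, Real.norm_eq_abs]
    by_cases h0' : ce N h i y = 0
    · rw [h0']; simp
    · have h2 := ce_supp N h i y h0'
      have h3 := ce_nonneg N h i y
      calc |N * h y - i| * (ce N h i y * ‖f y‖) ≤ 1 * (ce N h i y * ‖f y‖) := by gcongr
        _ = _ := one_mul _
  have nst : ∀ (u : C(Y, ℂ)) y, ‖(Star.star u) y‖ = ‖u y‖ := by
    intro u y; rw [ContinuousMap.star_apply, norm_star]
  -- far cells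
  have far : ∀ i j, ¬ (i ≤ j + 2 ∧ j ≤ i + 2) → Disjoint (tsupport (X i)) (tsupport (X j)) := by
    intro i j hij
    rw [Set.disjoint_left]
    intro y hy hy'
    have h2 := ce_tsupp N h i hy
    have h3 := ce_tsupp N h j hy'
    simp only [Set.mem_setOf_eq, abs_le] at h2 h3
    apply hij
    constructor
    · have : (i : ℝ) ≤ j + 2 := by linarith
      exact_mod_cast this
    · have : (j : ℝ) ≤ i + 2 := by linarith
      exact_mod_cast this
  have tz : ∀ u v : C(Y, ℂ), Disjoint (tsupport u) (tsupport v) → t u v = 0 := by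
    intro u v hd
    simp only [ht]
    rw [hD u v hd]
    simp
  have tsub : ∀ (u : C(Y, ℂ)) i, tsupport (X i * u) ⊆ tsupport (X i) := by
    intro u i
    refine closure_mono ?_
    intro y hy
    simp only [Function.mem_support, ContinuousMap.mul_apply, ne_eq, mul_eq_zero, not_or] at hy
    exact hy.1
  have tsub2 : ∀ (u : C(Y, ℂ)) i, tsupport (co h * (X i * u)) ⊆ tsupport (X i) := by
    intro u i
    refine closure_mono ?_
    intro y hy
    simp only [Function.mem_support, ContinuousMap.mul_apply, ne_eq, mul_eq_zero, not_or] at hy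
    exact hy.2.1
  have step : ∀ i j, (N : ℝ) * ‖t (co h * a i) (b j) - t (a i) (co h * b j)‖ ≤
      ‖D‖ * ((if (i ≤ j + 2 ∧ j ≤ i + 2) then |‖E₁ (Star.star (w i)) η‖ * ‖E₂ (b j) ξ‖| else 0) +
        (if (i ≤ j + 2 ∧ j ≤ i + 2) then |‖E₁ (Star.star (a i)) η‖ * ‖E₂ (w' j) ξ‖| else 0) +
        2 * (if (i ≤ j + 2 ∧ j ≤ i + 2) then |‖E₁ (Star.star (a i)) η‖ * ‖E₂ (b j) ξ‖| else 0)) := by
    intro i j
    by_cases hij : i ≤ j + 2 ∧ j ≤ i + 2
    · rw [if_pos hij, if_pos hij, if_pos hij]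
      have e1 : (N : ℂ) * t (co h * a i) (b j) = t (w i) (b j) + (i : ℂ) * t (a i) (b j) := by
        rw [← tml, ← tml, ← tal]; congr 1; simp only [hw]; abel
      have e2 : (N : ℂ) * t (a i) (co h * b j) = t (a i) (w' j) + (j : ℂ) * t (a i) (b j) := by
        rw [← tmr, ← tmr, ← tar]; congr 1; simp only [hw']; abel
      have e3 : (N : ℂ) * (t (co h * a i) (b j) - t (a i) (co h * b j)) =
          t (w i) (b j) - t (a i) (w' j) + ((i : ℂ) - j) * t (a i) (b j) := by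
        rw [mul_sub, e1, e2]; ring
      have e4 : ‖((i : ℂ) - j)‖ ≤ 2 := by
        have : ((i : ℂ) - j) = (((i : ℝ) - j : ℝ) : ℂ) := by push_cast; ring
        rw [this, Complex.norm_real, Real.norm_eq_abs, abs_le]
        have h2 : (i : ℝ) ≤ j + 2 := by exact_mod_cast hij.1
        have h3 : (j : ℝ) ≤ i + 2 := by exact_mod_cast hij.2
        constructor <;> linarith
      have e5 : (N : ℝ) * ‖t (co h * a i) (b j) - t (a i) (co h * b j)‖ =
          ‖(N : ℂ) * (t (co h * a i) (b j) - t (a i) (co h * b j))‖ := by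
        rw [norm_mul]; simp
      rw [e5, e3]
      calc _ ≤ ‖t (w i) (b j)‖ + ‖t (a i) (w' j)‖ + ‖((i : ℂ) - j) * t (a i) (b j)‖ :=
            (norm_add_le _ _).trans (add_le_add_left (norm_sub_le _ _) _)
        _ ≤ ‖D‖ * |‖E₁ (Star.star (w i)) η‖ * ‖E₂ (b j) ξ‖| +
            ‖D‖ * |‖E₁ (Star.star (a i)) η‖ * ‖E₂ (w' j) ξ‖| +
            2 * (‖D‖ * |‖E₁ (Star.star (a i)) η‖ * ‖E₂ (b j) ξ‖|) := by
            rw [norm_mul]
            gcongr
            · exact tbd _ _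
            · exact tbd _ _
            · exact tbd _ _
        _ = _ := by ring
    · rw [if_neg hij, if_neg hij, if_neg hij]
      have hd := far i j hij
      rw [tz _ _ (hd.mono (tsub2 f i) (tsub g j)), tz _ _ (hd.mono (tsub f i) (tsub2 g j))]
      simp
  -- Bessel sums
  have B1 : ∑ i ∈ Finset.range (N + 1), ‖E₁ (Star.star (w i)) η‖ ^ 2 ≤ p₁ * ‖f‖ ^ 2 * ‖η‖ ^ 2 :=
    h₁.bes_le _ (fun i => Star.star (w i)) _ (cell_bes N h h0 h1 f _
      (fun i y => by rw [nst]; exact nw f i y)) η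
  have B2 : ∑ i ∈ Finset.range (N + 1), ‖E₁ (Star.star (a i)) η‖ ^ 2 ≤ p₁ * ‖f‖ ^ 2 * ‖η‖ ^ 2 :=
    h₁.bes_le _ (fun i => Star.star (a i)) _ (cell_bes N h h0 h1 f _
      (fun i y => by rw [nst]; exact na f i y)) η
  have B3 : ∑ i ∈ Finset.range (N + 1), ‖E₂ (w' i) ξ‖ ^ 2 ≤ p₂ * ‖g‖ ^ 2 * ‖ξ‖ ^ 2 :=
    h₂.bes_le _ w' _ (cell_bes N h h0 h1 g _ (fun i y => nw g i y)) ξ
  have B4 : ∑ i ∈ Finset.range (N + 1), ‖E₂ (b i) ξ‖ ^ 2 ≤ p₂ * ‖g‖ ^ 2 * ‖ξ‖ ^ 2 :=
    h₂.bes_le _ b _ (cell_bes N h h0 h1 g _ (fun i y => na g i y)) ξ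
  set A := p₁ * ‖f‖ ^ 2 * ‖η‖ ^ 2 with hA
  set B := p₂ * ‖g‖ ^ 2 * ‖ξ‖ ^ 2 with hB
  have W1 := win (N + 1) (fun i => ‖E₁ (Star.star (w i)) η‖) (fun j => ‖E₂ (b j) ξ‖)
  have W2 := win (N + 1) (fun i => ‖E₁ (Star.star (a i)) η‖) (fun j => ‖E₂ (w' j) ξ‖)
  have W3 := win (N + 1) (fun i => ‖E₁ (Star.star (a i)) η‖) (fun j => ‖E₂ (b j) ξ‖)
  have ehf : co h * f = ∑ i ∈ Finset.range (N + 1), co h * a i := by
    rw [← Finset.mul_sum, ← hfa]
  have ehg : co h * g = ∑ i ∈ Finset.range (N + 1), co h * b i := by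
    rw [← Finset.mul_sum, ← hgb]
  have E1 : t (co h * f) g = ∑ i ∈ Finset.range (N + 1), ∑ j ∈ Finset.range (N + 1),
      t (co h * a i) (b j) := by
    rw [ehf, tsl]
    refine Finset.sum_congr rfl fun i _ => ?_
    conv_lhs => rw [hgb]
    rw [tsr]
  have E2 : t f (co h * g) = ∑ i ∈ Finset.range (N + 1), ∑ j ∈ Finset.range (N + 1),
      t (a i) (co h * b j) := by
    rw [ehg]
    conv_lhs => rw [hfa]
    rw [tsl]
    refine Finset.sum_congr rfl fun i _ => ?_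
    rw [tsr]
  change (N : ℝ) * ‖t (co h * f) g - t f (co h * g)‖ ≤ _
  rw [E1, E2, ← Finset.sum_sub_distrib]
  calc (N : ℝ) * ‖∑ i ∈ Finset.range (N + 1), ((∑ j ∈ Finset.range (N + 1), t (co h * a i) (b j)) -
        ∑ j ∈ Finset.range (N + 1), t (a i) (co h * b j))‖
      ≤ (N : ℝ) * ∑ i ∈ Finset.range (N + 1), ∑ j ∈ Finset.range (N + 1),
        ‖t (co h * a i) (b j) - t (a i) (co h * b j)‖ := by
        gcongr
        refine (norm_sum_le _ _).trans (Finset.sum_le_sum fun i _ => ?_)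
        rw [← Finset.sum_sub_distrib]
        exact norm_sum_le _ _
    _ = ∑ i ∈ Finset.range (N + 1), ∑ j ∈ Finset.range (N + 1),
        (N : ℝ) * ‖t (co h * a i) (b j) - t (a i) (co h * b j)‖ := by
        simp only [Finset.mul_sum]
    _ ≤ ∑ i ∈ Finset.range (N + 1), ∑ j ∈ Finset.range (N + 1), ‖D‖ *
        ((if (i ≤ j + 2 ∧ j ≤ i + 2) then |‖E₁ (Star.star (w i)) η‖ * ‖E₂ (b j) ξ‖| else 0) +
        (if (i ≤ j + 2 ∧ j ≤ i + 2) then |‖E₁ (Star.star (a i)) η‖ * ‖E₂ (w' j) ξ‖| else 0) +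
        2 * (if (i ≤ j + 2 ∧ j ≤ i + 2) then |‖E₁ (Star.star (a i)) η‖ * ‖E₂ (b j) ξ‖| else 0)) :=
        Finset.sum_le_sum fun i _ => Finset.sum_le_sum fun j _ => step i j
    _ = ‖D‖ * ((∑ i ∈ Finset.range (N + 1), ∑ j ∈ Finset.range (N + 1),
        (if (i ≤ j + 2 ∧ j ≤ i + 2) then |‖E₁ (Star.star (w i)) η‖ * ‖E₂ (b j) ξ‖| else 0)) +
        (∑ i ∈ Finset.range (N + 1), ∑ j ∈ Finset.range (N + 1),
        (if (i ≤ j + 2 ∧ j ≤ i + 2) then |‖E₁ (Star.star (a i)) η‖ * ‖E₂ (w' j) ξ‖| else 0)) +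
        2 * (∑ i ∈ Finset.range (N + 1), ∑ j ∈ Finset.range (N + 1),
        (if (i ≤ j + 2 ∧ j ≤ i + 2) then |‖E₁ (Star.star (a i)) η‖ * ‖E₂ (b j) ξ‖| else 0))) := by
        simp only [Finset.mul_sum, Finset.sum_add_distrib, mul_add]
    _ ≤ ‖D‖ * (5 / 2 * (A + B) + 5 / 2 * (A + B) + 2 * (5 / 2 * (A + B))) := by
        gcongr
        · exact W1.trans (by gcongr)
        · exact W2.trans (by gcongr)
        · exact W3.trans (by gcongr)
    _ = 10 * ‖D‖ * (A + B) := by ring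

theorem shift_unit (h₁ : UL E₁ p₁) (h₂ : UL E₂ p₂) (D : K →L[ℂ] K)
    (hD : ∀ f g : C(Y, ℂ), Disjoint (tsupport f) (tsupport g) → E₁ f * D * E₂ g = 0)
    (h : C(Y, ℝ)) (h0 : ∀ y, 0 ≤ h y) (h1 : ∀ y, h y ≤ 1) (f g : C(Y, ℂ)) :
    E₁ (co h * f) * D * E₂ g = E₁ f * D * E₂ (co h * g) := by
  refine ContinuousLinearMap.ext fun ξ => ext_inner_left ℂ fun η => ?_
  rw [← sub_eq_zero, ← norm_le_zero_iff]
  set z := ‖(inner ℂ η ((E₁ (co h * f) * D * E₂ g) ξ) : ℂ) -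
      inner ℂ η ((E₁ f * D * E₂ (co h * g)) ξ)‖
  set M := 10 * ‖D‖ * (p₁ * ‖f‖ ^ 2 * ‖η‖ ^ 2 + p₂ * ‖g‖ ^ 2 * ‖ξ‖ ^ 2)
  have hN : ∀ N : ℕ, (N : ℝ) * z ≤ M := fun N => shift_core h₁ h₂ D hD h h0 h1 f g η ξ N
  by_contra hz
  push Not at hz
  obtain ⟨N, hN'⟩ := exists_nat_gt (M / z)
  rw [div_lt_iff₀ hz] at hN'
  linarith [hN N]

/-- **Locality lemma, general form.** -/
theorem UL.shift (h₁ : UL E₁ p₁) (h₂ : UL E₂ p₂) (D : K →L[ℂ] K)
    (hD : ∀ f g : C(Y, ℂ), Disjoint (tsupport f) (tsupport g) → E₁ f * D * E₂ g = 0)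
    (h f g : C(Y, ℂ)) :
    E₁ (h * f) * D * E₂ g = E₁ f * D * E₂ (h * g) := by
  -- real functions
  have hr : ∀ r : C(Y, ℝ), E₁ (co r * f) * D * E₂ g = E₁ f * D * E₂ (co r * g) := by
    intro r
    set M : ℝ := ‖r‖ + 1 with hM
    have hM0 : 0 < M := by positivity
    set u : C(Y, ℝ) := ⟨fun y => (r y + M) / (2 * M), by fun_prop⟩ with hu
    have hb : ∀ y, |r y| ≤ M := fun y => by
      have := r.norm_coe_le_norm y
      rw [Real.norm_eq_abs] at this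
      linarith
    have hu0 : ∀ y, 0 ≤ u y := fun y => by
      have := abs_le.1 (hb y)
      simp only [hu, ContinuousMap.coe_mk]
      apply div_nonneg <;> linarith
    have hu1 : ∀ y, u y ≤ 1 := fun y => by
      have := abs_le.1 (hb y)
      simp only [hu, ContinuousMap.coe_mk]
      rw [div_le_one (by linarith)]
      linarith
    have e : co r = (2 * M : ℂ) • co u - (M : ℂ) • (1 : C(Y, ℂ)) := by
      ext y
      simp only [co_apply, hu, ContinuousMap.coe_mk, ContinuousMap.sub_apply,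
        ContinuousMap.smul_apply, ContinuousMap.one_apply, smul_eq_mul, mul_one]
      push_cast
      have : (M : ℂ) ≠ 0 := by exact_mod_cast hM0.ne'
      field_simp
      ring
    have hs := shift_unit h₁ h₂ D hD u hu0 hu1 f g
    rw [e]
    simp only [sub_mul, smul_mul_assoc, one_mul, map_sub, map_smul, mul_sub, mul_smul_comm]
    rw [hs]
  set a : C(Y, ℝ) := ⟨fun y => (h y).re, by fun_prop⟩
  set b : C(Y, ℝ) := ⟨fun y => (h y).im, by fun_prop⟩
  have e : h = co a + Complex.I • co b := by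
    ext y
    simp only [ContinuousMap.add_apply, ContinuousMap.smul_apply, co_apply, smul_eq_mul, a, b,
      ContinuousMap.coe_mk]
    rw [mul_comm]
    exact (Complex.re_add_im _).symm
  rw [e]
  simp only [add_mul, smul_mul_assoc, map_add, map_smul, mul_add, mul_smul_comm]
  rw [hr a, hr b]

/-- (A) local operators commute -/
theorem UL.comm_of_local (hE : UL E p) (hp : p ≠ 0) (D : K →L[ℂ] K)
    (hD : ∀ f g : C(Y, ℂ), Disjoint (tsupport f) (tsupport g) → E f * D * E g = 0)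
    (f : C(Y, ℂ)) : D * E f = E f * D := by
  have h := hE.shift hE D hD f 1 1
  simp only [mul_one, hE.one] at h
  simp only [mul_smul_comm, mul_one, smul_mul_assoc, one_mul] at h
  have hp' : (p : ℂ) ≠ 0 := by exact_mod_cast hp
  exact (smul_right_injective _ hp' h).symm

/-- orthogonal on disjoint supports implies multiplicative up to the masses -/
theorem UL.mul_of_disj (h₁ : UL E₁ p₁) (h₂ : UL E₂ p₂)
    (hd : ∀ f g : C(Y, ℂ), Disjoint (tsupport f) (tsupport g) → E₁ f * E₂ g = 0)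
    (f g : C(Y, ℂ)) : E₁ f * E₂ g = (p₁ : ℂ) • E₂ (f * g) := by
  have h := h₁.shift h₂ 1 (fun f g hfg => by rw [mul_one]; exact hd f g hfg) f 1 g
  simp only [mul_one, h₁.one] at h
  rw [h]
  simp

end

end Vale.Agent.P092.H828.P
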